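import Vale.Agent.H15.P150.Defs
import Vale.Agent.H15.P150.Last

namespace Vale.Agent.Results.P150.LinearRelaxation

open MeasureTheory ProbabilityTheory
open Vale.Agent.H15.P150

/-- Heat-bath dynamics of the zero-field Sherrington-Kirkpatrick model.
(1) For every disorder, every `β` and every `n ≥ 2`: `gap * n * ⟨R²⟩ ≤ 1`.
(2) For every fixed `β > 2 √(log 2)`, with `c = 1 - 2 √(log 2) / β > 0`, for every `n ≥ 2`:
`E ⟨R²⟩ ≥ c`, `E [1 / gap] ≥ c n`, and `1 / gap ≥ c n / 2` with probability at least `c / 2`. -/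
theorem result :
    (∀ (n : ℕ), 2 ≤ n → ∀ (β : ℝ) (g : Fin n → Fin n → ℝ),
      gap (wt β g) * (n * overlapSq (wt β g)) ≤ 1) ∧
    (∀ β : ℝ, 2 * Real.sqrt (Real.log 2) < β → ∀ n : ℕ, 2 ≤ n →
      0 < 1 - 2 * Real.sqrt (Real.log 2) / β ∧
      1 - 2 * Real.sqrt (Real.log 2) / β
        ≤ ∫ G, overlapSq (wt β (mat G)) ∂(disorder n) ∧
      ENNReal.ofReal ((1 - 2 * Real.sqrt (Real.log 2) / β) * n)
        ≤ ∫⁻ G, (ENNReal.ofReal (gap (wt β (mat G))))⁻¹ ∂(disorder n) ∧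
      (1 - 2 * Real.sqrt (Real.log 2) / β) / 2
        ≤ (disorder n).real {G | gap (wt β (mat G))
            ≤ 2 / ((1 - 2 * Real.sqrt (Real.log 2) / β) * n)}) :=
  mainResult

end Vale.Agent.Results.P150.LinearRelaxation
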